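import Vale.Agent.P142.Biv
import Vale.Agent.P142.Comb
import Vale.Agent.P142.Mean
import Vale.Agent.P142.Beta
import Vale.Agent.P142.Intg
import Vale.Agent.P142.Pos
import Vale.Agent.P142.Cov

open Metric Set MeasureTheory Filter Topology

namespace Vale.Agent.Results.P142.NineEighths

open Vale.Agent.P142

theorem key (f : ℂ → ℂ) (hf : DifferentiableOn ℂ f (ball 0 1)) (hi : InjOn f (ball 0 1))
    (h0 : f 0 = 0) : ∃ C : ℝ, 0 < C ∧ ∀ r : ℝ, 0 ≤ r → r < 1 →
      Mt f (-2) r ≤ C * (1 - r) ^ (-(9 / 8 : ℝ)) := by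
  obtain ⟨b, hS, hG⟩ := biv hf hi h0
  exact mean hf hi (comb _ b hS hG)

/-- Part 1: `B_S(-2) <= 9/8`. Part 2: the integral of `|phi'|^s` over `W` is finite for every
conformal bijection `phi` of an open set `W` onto the unit disc and all `4/3 < s < 34/9`. -/
theorem result : BS (-2) ≤ ((9 / 8 : ℝ) : EReal) ∧
    ∀ (W : Set ℂ) (φ : ℂ → ℂ), IsOpen W → DifferentiableOn ℂ φ W → BijOn φ W (ball 0 1) →
      ∀ s : ℝ, 4 / 3 < s → s < 34 / 9 →
        ∫⁻ z in W, ENNReal.ofReal (‖deriv φ z‖ ^ s) < ⊤ := by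
  refine ⟨?_, ?_⟩
  · refine iSup_le ?_
    rintro ⟨f, hf, hi, h0, -⟩
    obtain ⟨C, hC, h⟩ := key f hf hi h0
    exact beta_le hf hi hC h
  · intro W φ hW hφ hb s hs1 hs2
    obtain ⟨f, hf, hi, -, hcov⟩ := cov hW hφ hb
    rw [hcov s]
    rcases lt_or_ge 0 (2 - s) with h2 | h2
    · exact intpos hf hi h2 (by linarith)
    · set g : ℂ → ℂ := fun z => f z - f 0 with hgdef
      have hg : DifferentiableOn ℂ g (ball 0 1) := hf.sub_const _
      have hgi : InjOn g (ball 0 1) := by
        intro x hx y hy hxy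
        exact hi hx hy (by simpa [g] using hxy)
      obtain ⟨C, hC, h⟩ := key g hg hgi (by simp [g])
      have h3 := intneg hg hgi hC h (p := s - 2) (by linarith) (by linarith)
      have h4 : ∀ z, deriv g z = deriv f z := by
        intro z; simp [g]
      simp only [h4] at h3
      rwa [show (-(s - 2)) = 2 - s by ring] at h3

end Vale.Agent.Results.P142.NineEighths
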